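import Mathlib

/-!
# P225: the notions used in the statement

A metric on `ℝ^n` is a field of symmetric positive definite matrices.  Ricci tensor and
Laplacian are the classical coordinate expressions in the Christoffel symbols, and the distance
is the infimum of the lengths of `C^1` curves.
-/

namespace Vale.Agent.P225

open scoped ContDiff

noncomputable section

variable {n : ℕ}

/-- The Euclidean space of dimension `n`. -/
abbrev Euc (n : ℕ) := EuclideanSpace ℝ (Fin n)

/-- A field of matrices on `ℝ^n`. -/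
abbrev Field (n : ℕ) := Euc n → Matrix (Fin n) (Fin n) ℝ

/-- The partial derivative in the `i`-th coordinate. -/
def pd (f : Euc n → ℝ) (i : Fin n) (x : Euc n) : ℝ :=
  fderiv ℝ f x (EuclideanSpace.single i 1)

/-- The Christoffel symbol `Γ^k_{ij}` of `g`. -/
def christoffel (g : Field n) (x : Euc n) (k i j : Fin n) : ℝ :=
  (1 / 2) * ∑ l, (g x)⁻¹ k l *
    (pd (fun y => g y j l) i x + pd (fun y => g y i l) j x - pd (fun y => g y i j) l x)

/-- The Ricci tensor of `g` in coordinates. -/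
def ricci (g : Field n) (x : Euc n) (i j : Fin n) : ℝ :=
  (∑ k, pd (fun y => christoffel g y k i j) k x) -
    (∑ k, pd (fun y => christoffel g y k i k) j x) +
    ∑ k, ∑ l, (christoffel g x k k l * christoffel g x l i j -
      christoffel g x k j l * christoffel g x l i k)

/-- The Laplace operator of `g` in coordinates. -/
def laplace (g : Field n) (u : Euc n → ℝ) (x : Euc n) : ℝ :=
  ∑ i, ∑ j, (g x)⁻¹ i j * (pd (pd u j) i x - ∑ k, christoffel g x k i j * pd u k x)

/-- `g` is a smooth Riemannian metric. -/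
def IsMetric (g : Field n) : Prop :=
  (∀ i j, ContDiff ℝ ∞ fun x => g x i j) ∧ ∀ x, (g x).PosDef

/-- The Ricci tensor is nonnegative. -/
def RicciNonneg (g : Field n) : Prop :=
  ∀ (x : Euc n) (v : Fin n → ℝ), 0 ≤ ∑ i, ∑ j, v i * v j * ricci g x i j

/-- The length of a curve parametrised by `[0, 1]`. -/
def curveLength (g : Field n) (c : ℝ → Euc n) : ℝ :=
  ∫ t in (0 : ℝ)..1, √(∑ i, ∑ j, g (c t) i j * deriv c t i * deriv c t j)

/-- The Riemannian distance. -/
def dist' (g : Field n) (x y : Euc n) : ℝ :=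
  sInf {L : ℝ | ∃ c : ℝ → Euc n, ContDiff ℝ 1 c ∧ c 0 = x ∧ c 1 = y ∧ L = curveLength g c}

/-- The metric space of `g` is complete: Cauchy sequences converge. -/
def IsComplete' (g : Field n) : Prop :=
  ∀ a : ℕ → Euc n, (∀ ε > 0, ∃ N, ∀ i ≥ N, ∀ j ≥ N, dist' g (a i) (a j) < ε) →
    ∃ x, ∀ ε > 0, ∃ N, ∀ i ≥ N, dist' g (a i) x < ε

/-- `u` is a smooth harmonic function with `|u| ≤ C (1 + d(0, x))^k`. -/
def InGrowthClass (g : Field n) (k : ℕ) (u : Euc n → ℝ) : Prop :=
  ContDiff ℝ ∞ u ∧ (∀ x, laplace g u x = 0) ∧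
    ∃ C : ℝ, ∀ x, |u x| ≤ C * (1 + dist' g 0 x) ^ k

/-- The dimension of the harmonic polynomials of degree at most `k` on `ℝ^n`. -/
def flatCount (n k : ℕ) : ℕ :=
  (n + k - 1).choose k + (n + k - 2).choose (k - 1)

/-- Yau's dimension comparison fails. -/
def YauFails : Prop :=
  ∃ n : ℕ, 2 ≤ n ∧ ∃ k : ℕ, 1 ≤ k ∧ ∃ g : Field n,
    IsMetric g ∧ IsComplete' g ∧ RicciNonneg g ∧
    ∃ U : Fin (flatCount n k + 1) → Euc n → ℝ,
      LinearIndependent ℝ U ∧ ∀ i, InGrowthClass g k (U i)

end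

end Vale.Agent.P225
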