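import Vale.Agent.P225.Basic

/-!
# P225: the metric and the data of the construction

Throughout, `m = 2p + 1` is the dimension of the spheres, `s = log ‖x‖`, and the metric is
`dr² + r² (A(s)² η² + B(s)² (g_S - η²))`, where `η` is the Hopf form of a complex structure.
-/

namespace Vale.Agent.P225

open scoped ContDiff Matrix

noncomputable section

/-- The real dimension for complex dimension `p + 1`. -/
abbrev amb (p : ℕ) : ℕ := 2 * p + 2

/-- Index of the real part of the `a`-th complex coordinate. -/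
def reIdx {p : ℕ} (a : Fin (p + 1)) : Fin (amb p) := ⟨2 * a.val, by grind⟩

/-- Index of the imaginary part of the `a`-th complex coordinate. -/
def imIdx {p : ℕ} (a : Fin (p + 1)) : Fin (amb p) := ⟨2 * a.val + 1, by grind⟩

/-- The standard complex structure: `e_{2a} ↦ e_{2a+1} ↦ -e_{2a}`. -/
def J0 (p : ℕ) : Matrix (Fin (amb p)) (Fin (amb p)) ℝ := fun i j =>
  if i.val % 2 = 1 ∧ j.val + 1 = i.val then 1
  else if i.val % 2 = 0 ∧ j.val = i.val + 1 then -1 else 0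

/-- An orthogonal complex structure. -/
def IsCx {n : ℕ} (J : Matrix (Fin n) (Fin n) ℝ) : Prop := J.transpose = -J ∧ J * J = -1

/-- An orthogonal matrix. -/
def IsOrth {n : ℕ} (U : Matrix (Fin n) (Fin n) ℝ) : Prop :=
  U * U.transpose = 1 ∧ U.transpose * U = 1

/-- The conjugate complex structure. -/
def Jof {p : ℕ} (U : Matrix (Fin (amb p)) (Fin (amb p)) ℝ) :
    Matrix (Fin (amb p)) (Fin (amb p)) ℝ := U * J0 p * U.transpose

/-- `(J x)_i`. -/
def jvec {n : ℕ} (J : Matrix (Fin n) (Fin n) ℝ) (x : Euc n) (i : Fin n) : ℝ :=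
  ∑ j, J i j * x j

/-- The metric of the profiles `A`, `B` and complex structures `J`, as functions of `log r`. -/
def gOf {n : ℕ} (J : ℝ → Matrix (Fin n) (Fin n) ℝ) (A B : ℝ → ℝ) : Field n := fun x i j =>
  if x = 0 then (if i = j then 1 else 0) else
    x i * x j / ‖x‖ ^ 2 +
      B (Real.log ‖x‖) ^ 2 * ((if i = j then 1 else 0) - x i * x j / ‖x‖ ^ 2) +
      (A (Real.log ‖x‖) ^ 2 - B (Real.log ‖x‖) ^ 2) *
        (jvec (J (Real.log ‖x‖)) x i * jvec (J (Real.log ‖x‖)) x j / ‖x‖ ^ 2)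

/-- Radial eigenvalue of the Ricci tensor, times `r²`. -/
def ricRad (p : ℕ) (A B : ℝ → ℝ) (s : ℝ) : ℝ :=
  -(deriv (deriv A) s + deriv A s) / A s - 2 * p * (deriv (deriv B) s + deriv B s) / B s

/-- Fibre eigenvalue of the Ricci tensor, times `r²`. -/
def ricFib (p : ℕ) (A B : ℝ → ℝ) (s : ℝ) : ℝ :=
  -(deriv (deriv A) s + deriv A s) / A s
    - 2 * p * (A s + deriv A s) * (B s + deriv B s) / (A s * B s)
    + 2 * p * A s ^ 2 / B s ^ 4

/-- Horizontal eigenvalue of the Ricci tensor, times `r²`. -/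
def ricBase (p : ℕ) (A B : ℝ → ℝ) (s : ℝ) : ℝ :=
  -(deriv (deriv B) s + deriv B s) / B s
    - (A s + deriv A s) * (B s + deriv B s) / (A s * B s)
    - (2 * p - 1) * (B s + deriv B s) ^ 2 / B s ^ 2
    + (2 * p + 2) / B s ^ 2 - 2 * A s ^ 2 / B s ^ 4

/-! ## Harmonic polynomials -/

/-- Polynomials in `n` real variables. -/
abbrev Poly (n : ℕ) := MvPolynomial (Fin n) ℝ

/-- The Euclidean Laplacian of a polynomial. -/
def polyLap {n : ℕ} (P : Poly n) : Poly n :=
  ∑ i, MvPolynomial.pderiv i (MvPolynomial.pderiv i P)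

/-- `P` is a harmonic polynomial, homogeneous of degree `l`. -/
def IsHarm {n : ℕ} (l : ℕ) (P : Poly n) : Prop := P.IsHomogeneous l ∧ polyLap P = 0

/-- `(rot U P)(x) = P (Uᵀ x)`. -/
def rot {n : ℕ} (U : Matrix (Fin n) (Fin n) ℝ) (P : Poly n) : Poly n :=
  MvPolynomial.aeval (fun i => ∑ j, MvPolynomial.C (U j i) * MvPolynomial.X j) P

/-- `(xi J P)(x) = DP(x)[J x]`. -/
def xi {n : ℕ} (J : Matrix (Fin n) (Fin n) ℝ) (P : Poly n) : Poly n :=
  ∑ i, (∑ j, MvPolynomial.C (J i j) * MvPolynomial.X j) * MvPolynomial.pderiv i P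

/-- A basis of the harmonic polynomials of degree `l` made of eigenvectors of `(xi J0)²`. -/
def IsEigBasis (p l : ℕ) {d : ℕ} (b : Fin d → Poly (amb p)) (q : Fin d → ℕ) : Prop :=
  LinearIndependent ℝ b ∧ (∀ a, IsHarm l (b a)) ∧
    (∀ P, IsHarm l P → P ∈ Submodule.span ℝ (Set.range b)) ∧
    (∀ a, q a ≤ l) ∧ ∀ a, xi (J0 p) (xi (J0 p) (b a)) = -((q a : ℝ) ^ 2) • b a

/-- `R` is the matrix of `rot U` in the basis `b`. -/
def IsRotMatrix {n d : ℕ} (b : Fin d → Poly n) (U : Matrix (Fin n) (Fin n) ℝ)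
    (R : Matrix (Fin d) (Fin d) ℝ) : Prop :=
  ∀ a, rot U (b a) = ∑ a', R a' a • b a'

/-- A lower bound for the multiplicity of the bidegree `(a, b)`. -/
def biDim (p a b : ℕ) : ℕ :=
  (a + p).choose p * (b + p - 1).choose (p - 1) + (a + p - 1).choose (p - 1) * (b + p - 1).choose p

/-! ## Words -/

/-- Transfer of one segment at first order. -/
def segExp {d : ℕ} (R Ri : Matrix (Fin d) (Fin d) ℝ) (Y : Fin d → ℝ) (τ : ℝ) :
    Matrix (Fin d) (Fin d) ℝ :=
  R * Matrix.diagonal (fun a => Real.exp (τ * Y a)) * Ri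

/-- Transfer of a word of segments; later segments act on the left. -/
def segProd {d M : ℕ} (R Ri : Fin M → Matrix (Fin d) (Fin d) ℝ) (Y : Fin d → ℝ)
    (τ : Fin M → ℝ) : Matrix (Fin d) (Fin d) ℝ :=
  (List.ofFn fun i => segExp (R i) (Ri i) Y (τ i)).reverse.prod

/-- A word on finitely many levels, with a free scalar on each level. -/
def wordMap {L M : ℕ} (d : Fin L → ℕ) (R Ri : Fin M → (i : Fin L) → Matrix (Fin (d i)) (Fin (d i)) ℝ)
    (Y : (i : Fin L) → Fin (d i) → ℝ) (z : (Fin M → ℝ) × (Fin L → ℝ)) :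
    (i : Fin L) → Fin (d i) → Fin (d i) → ℝ :=
  fun i a b => Real.exp (-z.2 i) *
    segProd (fun k => R k i) (fun k => Ri k i) (Y i) z.1 a b

/-- A signed permutation matrix. -/
def monoMat {d : ℕ} (σ : Equiv.Perm (Fin d)) (ε : Fin d → ℝ) : Fin d → Fin d → ℝ :=
  fun a b => if a = σ b then ε b else 0

/-! ## The profiles for `p = 14` -/

/-- The complex dimension minus one. -/
def p₀ : ℕ := 14

/-- The value of `θ` at a dwell: `exp (2 m θ) = 51/50`. -/
def thetaStar : ℝ := Real.log (51 / 50) / 58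

/-- A lower bound for the squared base radius at a dwell. -/
def r2Inf : ℝ := 699 / 700 * (1 - 2 / 10 ^ 7)

/-- The limit of the volume radius. -/
def rhoInf : ℝ := √(r2Inf * Real.exp (2 * thetaStar))

/-- The identity up to `1`, constant from `2` on, concave. -/
def cap (u : ℝ) : ℝ := ∫ v in (0 : ℝ)..u, (1 - Real.smoothTransition (v - 1))

/-- `1 / √s` for `s ≥ S`, constant for `s ≤ S / 4`. -/
def psi (S s : ℝ) : ℝ := if s ≤ 0 then cap 2 / √S else cap (√S / √s) / √S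

/-- The first checkpoint index enters through `S = j₀^8`. -/
def rho (κ : ℝ) (j₀ : ℕ) (s : ℝ) : ℝ :=
  rhoInf + κ * psi ((j₀ : ℝ) ^ 8) s +
    (1 - rhoInf - κ * (cap 2 / √((j₀ : ℝ) ^ 8))) * (cap (2 * Real.exp (-s)) / cap 2)

/-- A bump supported in `[0, 1]`. -/
def bump₀ (x : ℝ) : ℝ := Real.smoothTransition (2 * x) * Real.smoothTransition (2 - 2 * x)

/-- A bump of integral one. -/
def bump (x : ℝ) : ℝ := bump₀ x / ∫ y in (0 : ℝ)..1, bump₀ y

/-- The period index: `j^8 ≤ s < (j+1)^8`. -/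
def period (s : ℝ) : ℕ := Nat.sqrt (Nat.sqrt (Nat.sqrt ⌊s⌋₊))

/-- The length unit of transitions in period `j`. -/
def unit' (j : ℕ) : ℝ := (j : ℝ) ^ 6

/-- The profile of `θ` in period `j`, `u` measured from its start: `M` excursions, then a dwell. -/
def thetaPiece (M j : ℕ) (τ : Fin M → ℝ) (u : ℝ) : ℝ :=
  (∑ i : Fin M, τ i / unit' j * bump ((u - (3 * (i : ℝ) + 1) * unit' j) / unit' j)) +
    thetaStar * Real.smoothTransition ((u - (3 * (M : ℝ) + 1) * unit' j) / unit' j) *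
      Real.smoothTransition
        ((((j + 1 : ℕ) : ℝ) ^ 8 - (j : ℝ) ^ 8 - unit' j - u) / unit' j)

/-- The squashing parameter. -/
def theta (M j₀ : ℕ) (τ : ℕ → Fin M → ℝ) (s : ℝ) : ℝ :=
  if s < (j₀ : ℝ) ^ 8 then 0
  else thetaPiece M (period s) (τ (period s)) (s - (period s : ℝ) ^ 8)

/-- The excursion under way, if there is one. -/
def segment (M j₀ : ℕ) (s : ℝ) : Option (Fin M) :=
  if s < (j₀ : ℝ) ^ 8 then none
  else if h : ⌊(s - (period s : ℝ) ^ 8) / (3 * unit' (period s))⌋₊ < M then some ⟨_, h⟩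
  else none

/-- The fibre profile. -/
def profA (ρ θ : ℝ → ℝ) (s : ℝ) : ℝ := ρ s * Real.exp (2 * p₀ * θ s)

/-- The base profile. -/
def profB (ρ θ : ℝ → ℝ) (s : ℝ) : ℝ := ρ s * Real.exp (-θ s)

/-- The drift of the radial equation. -/
def drift (ρ : ℝ → ℝ) (s : ℝ) : ℝ := 2 * p₀ + (2 * p₀ + 1) * deriv ρ s / ρ s

/-- `l (l + 2p)`. -/
def lam (l : ℕ) : ℝ := (l : ℝ) * ((l : ℝ) + 2 * p₀)

/-- The potential of the eigenvalue `q` of degree `l`. -/
def pot (ρ θ : ℝ → ℝ) (l q : ℕ) (s : ℝ) : ℝ :=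
  Real.exp (2 * θ s) *
    (lam l + (Real.exp (-(2 * (2 * p₀ + 1)) * θ s) - 1) * (q : ℝ) ^ 2) / ρ s ^ 2

/-- The first-order rate of an excursion. -/
def genY (l q : ℕ) : ℝ :=
  (lam l - (2 * p₀ + 1) * (q : ℝ) ^ 2) /
    (rhoInf ^ 2 * √((p₀ : ℝ) ^ 2 + lam l / rhoInf ^ 2))

/-- The bound for the potential at a dwell. -/
def dwellPot (l q : ℕ) : ℝ := (lam l + (50 / 51 - 1) * (q : ℝ) ^ 2) / r2Inf

/-- The exponent at a dwell. -/
def dwellExp (l q : ℕ) : ℝ := √((p₀ : ℝ) ^ 2 + dwellPot l q) - p₀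

end

end Vale.Agent.P225
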