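import Mathlib

/-!
# P225: harmonic homogeneous polynomials

`lap` is the Laplacian, `vf A` the linear vector field of a matrix `A`, `Harm N l` the harmonic
homogeneous polynomials of degree `l` in `N` variables. A skew matrix keeps `Harm N l`, the
Laplacian is onto, and the dimensions add up to the number in the problem.
-/

namespace Vale.Agent.P225

open MvPolynomial

variable {N : ℕ}

/-- Polynomials on Euclidean space. -/
abbrev Pol (N : ℕ) : Type := MvPolynomial (Fin N) ℝ

/-- The Laplacian. -/
noncomputable def lap : Pol N →ₗ[ℝ] Pol N :=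
  ∑ i, (pderiv i).toLinearMap ∘ₗ (pderiv i).toLinearMap

theorem lap_apply (p : Pol N) : lap p = ∑ i, pderiv i (pderiv i p) := by
  simp [lap, LinearMap.sum_apply]

/-- The vector field `∑ A i j x_j ∂_i`. -/
noncomputable def vf (A : Matrix (Fin N) (Fin N) ℝ) : Pol N →ₗ[ℝ] Pol N :=
  ∑ i, (LinearMap.mulLeft ℝ (∑ j, C (A i j) * X j)) ∘ₗ (pderiv i).toLinearMap

theorem vf_apply (A : Matrix (Fin N) (Fin N) ℝ) (p : Pol N) :
    vf A p = ∑ i, (∑ j, C (A i j) * X j) * pderiv i p := by
  simp [vf, LinearMap.sum_apply]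

/-- The Euler field. -/
theorem vf_one {p : Pol N} {l : ℕ} (h : p.IsHomogeneous l) : vf 1 p = l • p := by
  rw [← h.sum_X_mul_pderiv, vf_apply]
  refine Finset.sum_congr rfl fun i _ => ?_
  rw [Finset.sum_eq_single_of_mem i (Finset.mem_univ i) fun j _ hj => by
    simp [Ne.symm hj]]
  simp

/-- Derivatives commute. -/
theorem pderiv_swap (i j : Fin N) (p : Pol N) :
    pderiv i (pderiv j p) = pderiv j (pderiv i p) := by
  induction p using MvPolynomial.induction_on with
  | C a => simp
  | add a b ha hb => simp [ha, hb]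
  | mul_X a k hk =>
    simp only [pderiv_mul, map_add, pderiv_X, hk]
    rcases eq_or_ne i k with rfl | hi <;> rcases eq_or_ne j i with rfl | hj <;>
      simp [Pi.single_apply] <;> split_ifs <;> simp <;> ring

theorem pderiv_lin (A : Matrix (Fin N) (Fin N) ℝ) (i k : Fin N) :
    pderiv k (∑ j, C (A i j) * X j : Pol N) = C (A i k) := by
  rw [map_sum, Finset.sum_eq_single_of_mem k (Finset.mem_univ k) fun j _ hj => by
    simp [hj.symm]]
  simp

/-- A skew vector field commutes with the Laplacian. -/
theorem lap_vf (A : Matrix (Fin N) (Fin N) ℝ) (hA : ∀ i j, A i j = -A j i) (p : Pol N) :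
    lap (vf A p) = vf A (lap p) := by
  have h : ∀ i k, pderiv k (pderiv k ((∑ j, C (A i j) * X j) * pderiv i p)) =
      2 * (C (A i k) * pderiv k (pderiv i p)) +
        (∑ j, C (A i j) * X j) * pderiv i (pderiv k (pderiv k p)) := by
    intro i k
    rw [pderiv_mul, pderiv_lin, map_add, pderiv_mul, pderiv_mul, pderiv_lin, pderiv_C,
      pderiv_swap k i p, pderiv_swap k i (pderiv k p)]
    ring
  have hz : ∑ k, ∑ i, C (A i k) * pderiv k (pderiv i p) = 0 := by
    have e : ∑ k, ∑ i, C (A i k) * pderiv k (pderiv i p)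
        = -∑ k, ∑ i, C (A i k) * pderiv k (pderiv i p) := by
      conv_lhs => rw [Finset.sum_comm]
      rw [← Finset.sum_neg_distrib]
      refine Finset.sum_congr rfl fun k _ => ?_
      rw [← Finset.sum_neg_distrib]
      refine Finset.sum_congr rfl fun i _ => ?_
      rw [hA k i, pderiv_swap i k, map_neg]
      ring
    exact CharZero.eq_neg_self_iff.1 e
  simp only [lap_apply, vf_apply, map_sum, h, Finset.sum_add_distrib, ← Finset.mul_sum]
  rw [Finset.sum_comm] at hz
  rw [hz, mul_zero, zero_add]
  simp only [Finset.mul_sum]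
  exact Finset.sum_comm

theorem pderiv_of_degree_zero (i : Fin N) {p : Pol N} (h : p.IsHomogeneous 0) : pderiv i p = 0 := by
  have h0 : p.totalDegree = 0 := (totalDegree_zero_iff_isHomogeneous _).2 h
  rw [totalDegree_eq_zero_iff_eq_C.1 h0, pderiv_C]

/-- Homogeneous polynomials. -/
abbrev Hom (N l : ℕ) : Submodule ℝ (Pol N) := homogeneousSubmodule (Fin N) ℝ l

/-- Harmonic homogeneous polynomials. -/
noncomputable def Harm (N l : ℕ) : Submodule ℝ (Pol N) := Hom N l ⊓ LinearMap.ker lap

theorem mem_harm {p : Pol N} {l : ℕ} : p ∈ Harm N l ↔ p.IsHomogeneous l ∧ lap p = 0 := by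
  simp [Harm, Hom, mem_homogeneousSubmodule]

theorem isHomogeneous_vf (A : Matrix (Fin N) (Fin N) ℝ) {p : Pol N} {l : ℕ}
    (h : p.IsHomogeneous l) : (vf A p).IsHomogeneous l := by
  rw [vf_apply]
  refine IsHomogeneous.sum _ _ _ fun i _ => ?_
  rcases l with _ | l
  · rw [pderiv_of_degree_zero i h, mul_zero]
    exact isHomogeneous_zero _ _ _
  · have h1 : (∑ j, C (A i j) * X j : Pol N).IsHomogeneous 1 :=
      IsHomogeneous.sum _ _ _ fun j _ => (isHomogeneous_X ℝ j).C_mul _
    have h2 : (pderiv i p).IsHomogeneous l := h.pderiv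
    rw [Nat.add_comm l 1]
    exact h1.mul h2

/-- Skew fields preserve the harmonic spaces. -/
theorem vf_mem_harm {A : Matrix (Fin N) (Fin N) ℝ} (hA : ∀ i j, A i j = -A j i) {p : Pol N}
    {l : ℕ} (h : p ∈ Harm N l) : vf A p ∈ Harm N l := by
  rw [mem_harm] at h ⊢
  exact ⟨isHomogeneous_vf A h.1, by rw [lap_vf A hA, h.2, map_zero]⟩

theorem isHomogeneous_lap {p : Pol N} {l : ℕ} (h : p.IsHomogeneous (l + 2)) :
    (lap p).IsHomogeneous l := by
  rw [lap_apply]
  refine IsHomogeneous.sum _ _ _ fun i _ => ?_
  have h1 : (pderiv i p).IsHomogeneous (l + 1) := h.pderiv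
  exact h1.pderiv

/-- The number of monomials. -/
theorem finrank_hom (N l : ℕ) : Module.finrank ℝ (Hom N l) = N.multichoose l := by
  classical
  let e : Sym (Fin N) l ≃ {d : Fin N →₀ ℕ | d.degree = l} :=
    (Sym.equivNatSum (Fin N) l).trans (Equiv.subtypeEquivRight fun d => by
      simp [Finsupp.degree, Finsupp.sum]; rfl)
  have b := (MvPolynomial.basisRestrictSupport ℝ {d : Fin N →₀ ℕ | d.degree = l}).reindex e.symm
  rw [Hom, homogeneousSubmodule_eq_finsupp_supported]
  exact (Module.finrank_eq_card_basis b).trans (by rw [Sym.card_sym_eq_multichoose, Fintype.card_fin])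

/-- The Laplacian from degree `l + 2` is onto degree `l`. -/
theorem lap_surj (hN : 0 < N) {l : ℕ} {q : Pol N} (hq : q.IsHomogeneous l) :
    ∃ p : Pol N, p.IsHomogeneous (l + 2) ∧ lap p = q := by
  classical
  let i0 : Fin N := ⟨0, hN⟩
  let V : Submodule ℝ (Pol N) := (Hom N (l + 2)).map lap
  suffices h : ∀ (k : ℕ) (d : Fin N →₀ ℕ), d.degree = l → d.degree - d i0 ≤ k →
      monomial d (1 : ℝ) ∈ V by
    have hqV : q ∈ V := by
      rw [q.as_sum]
      refine Submodule.sum_mem _ fun d hd => ?_
      have hd' : d.degree = l := by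
        by_contra hne
        exact (MvPolynomial.mem_support_iff.1 hd) (hq.coeff_eq_zero hne)
      rw [show monomial d (q.coeff d) = q.coeff d • monomial d (1 : ℝ) by
        rw [smul_monomial, smul_eq_mul, mul_one]]
      exact V.smul_mem _ (h _ d hd' le_rfl)
    obtain ⟨p, hp, rfl⟩ := hqV
    exact ⟨p, hp, rfl⟩
  intro k
  induction k using Nat.strong_induction_on with
  | _ k ih =>
    intro d hd hk
    set d' := d + Finsupp.single i0 2 with hd'
    have hdeg : d'.degree = l + 2 := by simp [hd', hd]
    have hlap : lap (monomial d' (1 : ℝ)) =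
        ((d i0 + 2 : ℝ) * (d i0 + 1)) • monomial d 1 +
          ∑ i ∈ Finset.univ.erase i0,
            monomial (d' - Finsupp.single i 1 - Finsupp.single i 1)
              ((d' i : ℝ) * ((d' i - 1 : ℕ) : ℝ)) := by
      rw [lap_apply, ← Finset.add_sum_erase _ _ (Finset.mem_univ i0)]
      congr 1
      · rw [pderiv_monomial, pderiv_monomial, smul_monomial]
        have e1 : d' - Finsupp.single i0 1 - Finsupp.single i0 1 = d := by
          ext j
          rcases eq_or_ne j i0 with rfl | hj
          · simp [hd']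
          · simp [hd', Finsupp.single_eq_of_ne hj]
        rw [e1]
        congr 1
        simp [hd']
      · refine Finset.sum_congr rfl fun i _ => ?_
        rw [pderiv_monomial, pderiv_monomial]
        simp
    have hne : ((d i0 + 2 : ℝ) * (d i0 + 1)) ≠ 0 := by positivity
    have hmem : lap (monomial d' (1 : ℝ)) ∈ V :=
      ⟨_, (mem_homogeneousSubmodule _ _).2 (isHomogeneous_monomial _ hdeg), rfl⟩
    have hrest : ∀ i ∈ Finset.univ.erase i0,
        monomial (d' - Finsupp.single i 1 - Finsupp.single i 1)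
          ((d' i : ℝ) * ((d' i - 1 : ℕ) : ℝ)) ∈ V := by
      intro i hi
      have hii : i ≠ i0 := Finset.ne_of_mem_erase hi
      rcases le_or_gt (d' i) 1 with h1 | h1
      · have h0 : ((d' i : ℝ) * ((d' i - 1 : ℕ) : ℝ)) = 0 := by
          have : d' i - 1 = 0 := by omega
          simp [this]
        simp [h0]
      set e := d' - Finsupp.single i 1 - Finsupp.single i 1 with he
      have hsum : e + Finsupp.single i 2 = d' := by
        ext j
        rcases eq_or_ne j i with rfl | hj
        · simp [he]; omega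
        · simp [he, Finsupp.single_eq_of_ne hj]
      have hedeg : e.degree = l := by
        have := congrArg Finsupp.degree hsum
        rw [map_add, Finsupp.degree_single, hdeg] at this
        omega
      have he0 : e i0 = d i0 + 2 := by
        simp [he, hd', Finsupp.single_eq_of_ne hii.symm]
      have hle : e i0 ≤ e.degree := Finsupp.le_degree i0 e
      have := ih (l - (d i0 + 2)) (by omega) e hedeg (by omega)
      rw [← mul_one ((d' i : ℝ) * ((d' i - 1 : ℕ) : ℝ)), ← smul_eq_mul, ← smul_monomial]
      exact V.smul_mem _ this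
    rw [hlap] at hmem
    have := (Submodule.add_mem_iff_left _ (Submodule.sum_mem _ hrest)).1 hmem
    exact (Submodule.smul_mem_iff _ hne).1 this

/-- The dimension of the harmonic space. -/
theorem finrank_harm (hN : 0 < N) (l : ℕ) :
    Module.finrank ℝ (Harm N (l + 2)) + N.multichoose l = N.multichoose (l + 2) := by
  have : ∀ k, Module.Finite ℝ (Hom N k) := fun k =>
    Module.Finite.iff_fg.2 (MvPolynomial.homogeneousSubmodule_fg (Fin N) ℝ k)
  let f : Hom N (l + 2) →ₗ[ℝ] Hom N l :=
    (lap.domRestrict (Hom N (l + 2))).codRestrict (Hom N l) fun p => isHomogeneous_lap p.2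
  have hf : LinearMap.range f = ⊤ := LinearMap.range_eq_top.2 fun q => by
    obtain ⟨p, hp, hpq⟩ := lap_surj hN q.2
    exact ⟨⟨p, hp⟩, Subtype.ext hpq⟩
  let e : LinearMap.ker f ≃ₗ[ℝ] Harm N (l + 2) :=
    { toFun := fun p => ⟨p.1.1, p.1.2, congrArg Subtype.val (LinearMap.mem_ker.1 p.2)⟩
      invFun := fun p => ⟨⟨p.1, p.2.1⟩, Subtype.ext p.2.2⟩
      map_add' := fun _ _ => rfl
      map_smul' := fun _ _ => rfl
      left_inv := fun _ => rfl
      right_inv := fun _ => rfl }
  have h := LinearMap.finrank_range_add_finrank_ker f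
  rw [hf, finrank_top, e.finrank_eq, finrank_hom, finrank_hom] at h
  omega

theorem finrank_harm_of_le_one {l : ℕ} (hl : l ≤ 1) :
    Module.finrank ℝ (Harm N l) = N.multichoose l := by
  have h : Harm N l = Hom N l := by
    refine inf_eq_left.2 fun p hp => LinearMap.mem_ker.2 ?_
    rw [lap_apply]
    refine Finset.sum_eq_zero fun i _ => ?_
    have h1 : (pderiv i p).IsHomogeneous (l - 1) := IsHomogeneous.pderiv hp
    rw [show l - 1 = 0 by omega] at h1
    exact pderiv_of_degree_zero i h1
  rw [h, finrank_hom]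

/-- The total dimension up to degree `k`. -/
theorem sum_finrank_harm (hN : 0 < N) (k : ℕ) :
    ∑ l ∈ Finset.range (k + 2), Module.finrank ℝ (Harm N l) =
      (N + k).choose (k + 1) + (N + k - 1).choose k := by
  have key : ∀ k, ∑ l ∈ Finset.range (k + 2), Module.finrank ℝ (Harm N l) =
      N.multichoose (k + 1) + N.multichoose k := by
    intro k
    induction k with
    | zero =>
      rw [Finset.sum_range_succ, Finset.sum_range_one, finrank_harm_of_le_one le_rfl,
        finrank_harm_of_le_one zero_le_one, add_comm]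
    | succ k ih =>
      rw [Finset.sum_range_succ, ih]
      have := finrank_harm hN k
      rw [show k + 1 + 1 = k + 2 from rfl]
      omega
  rw [key, Nat.multichoose_eq, Nat.multichoose_eq, show N + (k + 1) - 1 = N + k by omega]

end Vale.Agent.P225
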