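import Vale.Agent.P225.Defs

/-!
# P225: the statements of the modules

These are the goals of the separate modules; `Main` combines proofs of all of them.
-/

namespace Vale.Agent.P225

open scoped ContDiff
open Filter Topology

noncomputable section

/-- Near every `s` the structure is constant or the metric is round. -/
def SwitchesWhereRound {n : ℕ} (J : ℝ → Matrix (Fin n) (Fin n) ℝ) (A B : ℝ → ℝ) : Prop :=
  ∀ s, (∀ᶠ t in 𝓝 s, J t = J s) ∨ (∀ᶠ t in 𝓝 s, A t = B t)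

/-- The hypotheses on profiles. -/
def IsProfile {n : ℕ} (J : ℝ → Matrix (Fin n) (Fin n) ℝ) (A B : ℝ → ℝ) (c : ℝ) : Prop :=
  ContDiff ℝ ∞ A ∧ ContDiff ℝ ∞ B ∧ (∀ s, IsCx (J s)) ∧ SwitchesWhereRound J A B ∧
    (∀ s ≤ 0, A s = 1 ∧ B s = 1) ∧ 0 < c ∧ (∀ s, c ≤ A s ∧ A s ≤ 1 / c ∧ c ≤ B s ∧ B s ≤ 1 / c)

/-- Geometry: metric, completeness, Ricci curvature. -/
def GeomStmt : Prop :=
  ∀ (p : ℕ) (J : ℝ → Matrix (Fin (amb p)) (Fin (amb p)) ℝ) (A B : ℝ → ℝ) (c : ℝ),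
    1 ≤ p → IsProfile J A B c →
    IsMetric (gOf J A B) ∧ IsComplete' (gOf J A B) ∧
      (∀ x, c * ‖x‖ ≤ dist' (gOf J A B) 0 x) ∧
      ((∀ s, 0 ≤ ricRad p A B s ∧ 0 ≤ ricFib p A B s ∧ 0 ≤ ricBase p A B s) →
        RicciNonneg (gOf J A B))

/-- A solution of the radial system gives a smooth harmonic function. -/
def LaplaceStmt : Prop :=
  ∀ (p : ℕ) (J : ℝ → Matrix (Fin (amb p)) (Fin (amb p)) ℝ) (A B : ℝ → ℝ) (c : ℝ)
    (l d : ℕ) (b : Fin d → Poly (amb p)) (Y : ℝ → Fin d → ℝ) (v : Fin d → ℝ),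
    1 ≤ p → IsProfile J A B c → (∀ a, IsHarm l (b a)) → ContDiff ℝ ∞ Y →
    (∀ s ≤ 0, Y s = Real.exp (l * s) • v) →
    (∀ s, ∑ a, (deriv (deriv Y) s a +
        (2 * p + deriv A s / A s + 2 * p * (deriv B s / B s)) * deriv Y s a) • b a =
      ((l : ℝ) * (l + 2 * p) / B s ^ 2) • (∑ a, Y s a • b a) -
        (1 / A s ^ 2 - 1 / B s ^ 2) • xi (J s) (xi (J s) (∑ a, Y s a • b a))) →
    ∃ u : Euc (amb p) → ℝ, ContDiff ℝ ∞ u ∧ (∀ x, laplace (gOf J A B) u x = 0) ∧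
      (∀ x : Euc (amb p), ‖x‖ ≤ 1 →
        u x = MvPolynomial.eval (fun i => x i) (∑ a, v a • b a)) ∧
      ∃ C : ℝ, ∀ x, 1 ≤ ‖x‖ → |u x| ≤ C * ∑ a, |Y (Real.log ‖x‖) a|

/-- Harmonic polynomials: a basis with the multiplicities, and the action of rotations. -/
def PolyStmt : Prop :=
  ∀ p : ℕ, 1 ≤ p →
    (∀ l : ℕ, ∃ (d : ℕ) (b : Fin d → Poly (amb p)) (q : Fin d → ℕ), IsEigBasis p l b q ∧
      ∀ r : ℕ,
        ∑ a ∈ (Finset.range (l + 1)).filter (fun a => Nat.dist (2 * a) l = r), biDim p a (l - a) ≤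
          (Finset.univ.filter fun i => q i = r).card) ∧
    (∀ U : Matrix (Fin (amb p)) (Fin (amb p)) ℝ, IsOrth U →
      IsCx (Jof U) ∧ (∀ P, xi (Jof U) (rot U P) = rot U (xi (J0 p) P))) ∧
    (∀ (l d : ℕ) (b : Fin d → Poly (amb p)) (q : Fin d → ℕ), IsEigBasis p l b q →
      ∀ U, IsOrth U → ∃ R Ri : Matrix (Fin d) (Fin d) ℝ,
        IsRotMatrix b U R ∧ IsRotMatrix b U.transpose Ri ∧ R * Ri = 1 ∧ Ri * R = 1)

/-- Generation: some word reaches the signed permutations, with surjective derivative. -/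
def GenStmt : Prop :=
  ∀ (p L : ℕ) (l : Fin L → ℕ) (d : Fin L → ℕ)
    (b : (i : Fin L) → Fin (d i) → Poly (amb p)) (q : (i : Fin L) → Fin (d i) → ℕ)
    (c sh : Fin L → ℝ) (σ : (i : Fin L) → Equiv.Perm (Fin (d i))),
    3 ≤ p → Function.Injective l → (∀ i, 3 ≤ l i) → (∀ i, IsEigBasis p (l i) (b i) (q i)) →
    (∀ i, 0 < c i) → (∀ i j, l i < l j → c j < c i) →
    ∃ (M : ℕ) (U : Fin M → Matrix (Fin (amb p)) (Fin (amb p)) ℝ)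
      (R Ri : Fin M → (i : Fin L) → Matrix (Fin (d i)) (Fin (d i)) ℝ)
      (τ : Fin M → ℝ) (γ : Fin L → ℝ) (ε : (i : Fin L) → Fin (d i) → ℝ),
      (∀ k, IsOrth (U k)) ∧ (∀ k i, IsRotMatrix (b i) (U k) (R k i)) ∧
      (∀ k i, R k i * Ri k i = 1 ∧ Ri k i * R k i = 1) ∧ (∀ i a, |ε i a| = 1) ∧
      wordMap d R Ri (fun i a => sh i - c i * (q i a : ℝ) ^ 2) (τ, γ) =
        (fun i => monoMat (σ i) (ε i)) ∧
      ∃ D : (Fin M → ℝ) × (Fin L → ℝ) →L[ℝ] ((i : Fin L) → Fin (d i) → Fin (d i) → ℝ),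
        HasStrictFDerivAt (wordMap d R Ri fun i a => sh i - c i * (q i a : ℝ) ^ 2) D (τ, γ) ∧
          Function.Surjective D

/-- The profiles have nonnegative Ricci curvature. -/
def ProfileStmt : Prop :=
  ∃ κ : ℝ, 0 < κ ∧ ∀ (M : ℕ) (T : ℝ), ∀ᶠ j₀ : ℕ in atTop,
    ∀ τ : ℕ → Fin M → ℝ, (∀ j k, |τ j k| ≤ T) →
      ContDiff ℝ ∞ (rho κ j₀) ∧ ContDiff ℝ ∞ (theta M j₀ τ) ∧
      (∀ s ≤ 0, rho κ j₀ s = 1 ∧ theta M j₀ τ s = 0) ∧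
      (∀ s, rhoInf ≤ rho κ j₀ s ∧ rho κ j₀ s ≤ 1 ∧ |theta M j₀ τ s| ≤ 1) ∧
      (∀ s, (∀ᶠ t in 𝓝 s, segment M j₀ t = segment M j₀ s) ∨
        (∀ᶠ t in 𝓝 s, theta M j₀ τ t = 0)) ∧
      ∀ s, 0 ≤ ricRad p₀ (profA (rho κ j₀) (theta M j₀ τ)) (profB (rho κ j₀) (theta M j₀ τ)) s ∧
        0 ≤ ricFib p₀ (profA (rho κ j₀) (theta M j₀ τ)) (profB (rho κ j₀) (theta M j₀ τ)) s ∧
        0 ≤ ricBase p₀ (profA (rho κ j₀) (theta M j₀ τ)) (profB (rho κ j₀) (theta M j₀ τ)) s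

/-- The matrix of the potential at `s`. -/
def potMat {M d : ℕ} (ρ θ : ℝ → ℝ) (sg : ℝ → Option (Fin M)) (l : ℕ) (q : Fin d → ℕ)
    (R Ri : Fin M → Matrix (Fin d) (Fin d) ℝ) (s : ℝ) : Matrix (Fin d) (Fin d) ℝ :=
  match sg s with
  | none => Matrix.diagonal fun a => pot ρ θ l (q a) s
  | some k => R k * Matrix.diagonal (fun a => pot ρ θ l (q a) s) * Ri k

/-- The radial systems: exact transfers and growth. -/
def AnalysisStmt : Prop :=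
  ∀ (κ : ℝ) (L M : ℕ) (l : Fin L → ℕ) (d : Fin L → ℕ) (q : (i : Fin L) → Fin (d i) → ℕ)
    (R Ri : Fin M → (i : Fin L) → Matrix (Fin (d i)) (Fin (d i)) ℝ)
    (σ : (i : Fin L) → Equiv.Perm (Fin (d i))) (ε : (i : Fin L) → Fin (d i) → ℝ)
    (τ₀ : Fin M → ℝ) (γ₀ : Fin L → ℝ)
    (D : (Fin M → ℝ) × (Fin L → ℝ) →L[ℝ] ((i : Fin L) → Fin (d i) → Fin (d i) → ℝ)),
    0 < κ → (∀ i, 1 ≤ l i) → (∀ i a, q i a ≤ l i) →
    (∀ k i, R k i * Ri k i = 1 ∧ Ri k i * R k i = 1) → (∀ i a, |ε i a| = 1) →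
    wordMap d R Ri (fun i a => genY (l i) (q i a)) (τ₀, γ₀) = (fun i => monoMat (σ i) (ε i)) →
    HasStrictFDerivAt (wordMap d R Ri fun i a => genY (l i) (q i a)) D (τ₀, γ₀) →
    Function.Surjective D →
    ∃ T : ℝ, ∀ᶠ j₀ : ℕ in atTop, ∃ τ : ℕ → Fin M → ℝ, (∀ j k, |τ j k| ≤ T) ∧
      ∀ (i : Fin L) (a : Fin (d i)), ∃ Y : ℝ → Fin (d i) → ℝ,
        ContDiff ℝ ∞ Y ∧ (∀ s ≤ 0, Y s = Real.exp (l i * s) • Pi.single a 1) ∧
        (∀ s, deriv (deriv Y) s + drift (rho κ j₀) s • deriv Y s =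
          (potMat (rho κ j₀) (theta M j₀ τ) (segment M j₀) (l i) (q i)
            (fun k => R k i) (fun k => Ri k i) s).mulVec (Y s)) ∧
        ∀ k P : ℕ, 1 ≤ P → (σ i ^ P) a = a →
          ∑ e ∈ Finset.range P, dwellExp (l i) (q i ((σ i ^ e) a)) < k * P →
          ∃ C : ℝ, ∀ s, 0 ≤ s → ∑ a', |Y s a'| ≤ C * Real.exp (k * s)

/-- The counting certificate. -/
def CountStmt : Prop :=
  ∃ k : ℕ, 1 ≤ k ∧ ∃ (S : Finset ℕ) (Z : ℕ → ℕ),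
    (∀ l ∈ S, 3 ≤ l ∧
      ∑ a ∈ (Finset.range (l + 1)).filter (fun a => Z l ≤ Nat.dist (2 * a) l),
          (biDim p₀ a (l - a) : ℝ) * dwellPot l (Nat.dist (2 * a) l) <
        (∑ a ∈ (Finset.range (l + 1)).filter (fun a => Z l ≤ Nat.dist (2 * a) l),
          (biDim p₀ a (l - a) : ℝ)) * ((k : ℝ) ^ 2 + 2 * p₀ * k)) ∧
    flatCount (amb p₀) k + 1 ≤
      ∑ l ∈ S, ∑ a ∈ (Finset.range (l + 1)).filter (fun a => Z l ≤ Nat.dist (2 * a) l),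
        biDim p₀ a (l - a)

end

end Vale.Agent.P225
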