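import Vale.Agent.P225.Basic

/-!
# P225: the notions of the statement are the standard ones

For the Euclidean metric the Ricci tensor vanishes, the Laplace operator is the sum of the second
derivatives, curve length and distance are the Euclidean ones and the space is complete.
The hyperbolic plane in horospherical coordinates has Ricci tensor `-g`.
-/

namespace Vale.Agent.P225.Sanity

open scoped ContDiff Topology
open Filter intervalIntegral

noncomputable section

variable {n : ℕ}

/-- The Euclidean metric. -/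
def flat (n : ℕ) : Field n := fun _ => 1

theorem christoffel_flat (x : Euc n) (k i j : Fin n) : christoffel (flat n) x k i j = 0 := by
  simp [christoffel, flat, pd]

theorem ricci_flat (x : Euc n) (i j : Fin n) : ricci (flat n) x i j = 0 := by
  simp [ricci, pd, christoffel_flat]

theorem laplace_flat (u : Euc n → ℝ) (x : Euc n) :
    laplace (flat n) u x = ∑ i, pd (pd u i) i x := by
  simp only [laplace, christoffel_flat]
  simp [flat, Matrix.one_apply]

theorem isMetric_flat : IsMetric (flat n) :=
  ⟨fun _ _ => contDiff_const, fun _ => Matrix.PosDef.one⟩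

theorem ricciNonneg_flat : RicciNonneg (flat n) := fun x v => by simp [ricci_flat]

theorem speed_flat (w : Euc n) (x : Euc n) :
    √(∑ i, ∑ j, flat n x i j * w i * w j) = ‖w‖ := by
  rw [EuclideanSpace.norm_eq]
  congr 1
  simp [flat, Matrix.one_apply, sq]

theorem curveLength_flat (c : ℝ → Euc n) :
    curveLength (flat n) c = ∫ t in (0 : ℝ)..1, ‖deriv c t‖ := by
  simp only [curveLength, speed_flat]

theorem dist_flat (x y : Euc n) : dist' (flat n) x y = ‖y - x‖ := by
  have hseg : ContDiff ℝ 1 fun t : ℝ => x + t • (y - x) :=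
    contDiff_const.add (contDiff_id.smul contDiff_const)
  have hlow : ∀ c : ℝ → Euc n, ContDiff ℝ 1 c → c 0 = x → c 1 = y →
      ‖y - x‖ ≤ curveLength (flat n) c := fun c hc h0 h1 => by
    have hd : Continuous (deriv c) := hc.continuous_deriv le_rfl
    rw [curveLength_flat, ← h0, ← h1, ← integral_deriv_eq_sub
      (fun t _ => (hc.differentiable one_ne_zero) t) (hd.intervalIntegrable _ _)]
    exact norm_integral_le_integral_norm zero_le_one
  refine le_antisymm (csInf_le ⟨‖y - x‖, ?_⟩ ⟨_, hseg, by simp, by simp, ?_⟩)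
    (le_csInf ⟨_, _, hseg, by simp, by simp, rfl⟩ ?_)
  · rintro L ⟨c, hc, h0, h1, rfl⟩; exact hlow c hc h0 h1
  · have hd : ∀ t : ℝ, deriv (fun t : ℝ => x + t • (y - x)) t = y - x := fun t => by
      simpa using (((hasDerivAt_id t).smul_const (y - x)).const_add x).deriv
    simp [curveLength_flat, hd]
  · rintro L ⟨c, hc, h0, h1, rfl⟩; exact hlow c hc h0 h1

theorem isComplete_flat : IsComplete' (flat n) := by
  intro a ha
  have hcs : CauchySeq a := Metric.cauchySeq_iff.2 fun ε hε => by
    obtain ⟨N, hN⟩ := ha ε hε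
    exact ⟨N, fun i hi j hj => by
      simpa [dist_flat, dist_eq_norm, norm_sub_rev] using hN i hi j hj⟩
  obtain ⟨x, hx⟩ := cauchySeq_tendsto_of_complete hcs
  refine ⟨x, fun ε hε => ?_⟩
  obtain ⟨N, hN⟩ := Metric.tendsto_atTop.1 hx ε hε
  exact ⟨N, fun i hi => by
    simpa [dist_flat, dist_eq_norm, norm_sub_rev] using hN i hi⟩

/-- The hyperbolic plane `dt² + exp (2t) dz²`. -/
def hyp : Field 2 := fun x => Matrix.diagonal ![1, Real.exp (2 * x 0)]

theorem pd_exp (a b : ℝ) (x : Euc 2) (i : Fin 2) :
    pd (fun y => a * Real.exp (b * y 0)) i x =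
      a * b * Real.exp (b * x 0) * (if i = 0 then 1 else 0) := by
  have h0 : HasFDerivAt (fun y : Euc 2 => y 0) (EuclideanSpace.proj 0 : Euc 2 →L[ℝ] ℝ) x :=
    (EuclideanSpace.proj 0 : Euc 2 →L[ℝ] ℝ).hasFDerivAt
  rw [pd, (((h0.const_mul b).exp).const_mul a).fderiv]
  rcases eq_or_ne i 0 with rfl | h
  · simp; ring
  · simp [h, Ne.symm h]

theorem inv_hyp (x : Euc 2) :
    (hyp x)⁻¹ = Matrix.diagonal ![1, Real.exp (-2 * x 0)] := by
  refine Matrix.inv_eq_right_inv ?_
  rw [hyp, Matrix.diagonal_mul_diagonal, ← Matrix.diagonal_one]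
  congr 1; funext i
  fin_cases i <;> simp [← Real.exp_add]

theorem christoffel_hyp (x : Euc 2) :
    (∀ i j, christoffel hyp x 0 i j =
      if i = 1 ∧ j = 1 then -Real.exp (2 * x 0) else 0) ∧
    (∀ i j, christoffel hyp x 1 i j = if i ≠ j then 1 else 0) := by
  have e : ∀ j l i, pd (fun y => hyp y j l) i x =
      if j = 1 ∧ l = 1 ∧ i = 0 then 2 * Real.exp (2 * x 0) else 0 := fun j l i => by
    fin_cases j <;> fin_cases l
    all_goals first
      | (simp [hyp, pd]; done)
      | (have h := pd_exp 1 2 x i; simp only [one_mul] at h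
         show pd (fun y => hyp y 1 1) i x = _
         simp only [hyp, Matrix.diagonal_apply_eq, Matrix.cons_val_one, Matrix.cons_val_zero]
         rw [h]; fin_cases i <;> simp)
  refine ⟨fun i j => ?_, fun i j => ?_⟩ <;>
    simp only [christoffel, inv_hyp, e, Fin.sum_univ_two] <;>
    fin_cases i <;> fin_cases j <;> simp [← mul_assoc]
  all_goals rw [mul_comm _ (2 : ℝ), ← mul_assoc, mul_assoc, ← Real.exp_add] <;> norm_num

/-- The curvature convention: the hyperbolic plane has Ricci curvature `-1`. -/
theorem ricci_hyp (x : Euc 2) : ricci hyp x 0 0 = -1 := by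
  have c0 := fun y => (christoffel_hyp y).1
  have c1 := fun y => (christoffel_hyp y).2
  simp [ricci, Fin.sum_univ_two, c0, c1, pd]

end

end Vale.Agent.P225.Sanity
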